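import Mathlib
import Crest.Agent.Lib.BorsukUlam.Basic

/-!
Brouwer's fixed point theorem, derived from the Borsuk–Ulam theorem.
-/

set_option autoImplicit false

namespace Crest.Agent.Lib.Brouwer

open Set Filter Topology

/-- A bounded continuous self-map of a finite-dimensional normed space has a fixed point. -/
theorem exists_fixed_of_bounded {E : Type*} [NormedAddCommGroup E] [NormedSpace ℝ E]
    [FiniteDimensional ℝ E] (h : E → E) (hc : Continuous h) (C : ℝ) (hb : ∀ x, ‖h x‖ ≤ C) :
    ∃ x, h x = x := by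
  let F : E × ℝ → E := fun v => v.1 - v.2 • h (v.2⁻¹ • v.1)
  have hodd : ∀ v, F (-v) = - F v := by
    intro v
    simp only [F, Prod.fst_neg, Prod.snd_neg, inv_neg, smul_neg, neg_smul, neg_neg]
    abel
  have hcont : Continuous F := by
    refine continuous_fst.sub ?_
    rw [continuous_iff_continuousAt]
    intro v
    by_cases hv : v.2 = 0
    · have h0 : v.2 • h (v.2⁻¹ • v.1) = 0 := by simp [hv]
      unfold ContinuousAt
      beta_reduce
      rw [h0]
      refine squeeze_zero_norm (a := fun w : E × ℝ => |w.2| * C) (fun w => ?_) ?_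
      · rw [norm_smul, Real.norm_eq_abs]
        exact mul_le_mul_of_nonneg_left (hb _) (abs_nonneg _)
      · have : Continuous fun w : E × ℝ => |w.2| * C := by fun_prop
        simpa [hv] using this.tendsto v
    · exact continuousAt_snd.smul (hc.continuousAt.comp
        ((continuousAt_snd.inv₀ hv).smul continuousAt_fst))
  obtain ⟨v, hv, h0⟩ := Crest.Agent.Lib.BorsukUlam.borsuk_ulam (E := E × ℝ) (G := E)
    (by simp) F hodd hcont.continuousOn
  have h1 : v.1 = v.2 • h (v.2⁻¹ • v.1) := sub_eq_zero.mp h0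
  have h2 : v.2 ≠ 0 := by
    intro h2
    apply hv
    have : v.1 = 0 := by rw [h1, h2]; simp
    exact Prod.ext this h2
  refine ⟨v.2⁻¹ • v.1, ?_⟩
  conv_rhs => rw [h1]
  rw [smul_smul, inv_mul_cancel₀ h2, one_smul]

/-- A nonempty closed convex subset of a finite-dimensional space is a retract of the space. -/
theorem exists_retraction {E : Type*} [NormedAddCommGroup E] [NormedSpace ℝ E]
    [FiniteDimensional ℝ E] {K : Set E} (hne : K.Nonempty) (hcl : IsClosed K) (hK : Convex ℝ K) :
    ∃ r : E → E, Continuous r ∧ (∀ x, r x ∈ K) ∧ ∀ x ∈ K, r x = x := by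
  let e := toEuclidean (E := E)
  let K' := e '' K
  have hne' : K'.Nonempty := hne.image _
  have hcl' : IsClosed K' := e.toHomeomorph.isClosedMap _ hcl
  have hK' : Convex ℝ K' := hK.linear_image e.toLinearEquiv.toLinearMap
  choose P hPK hP using exists_norm_eq_iInf_of_complete_convex hne' hcl'.isComplete hK'
  have hP' : ∀ u, ∀ w ∈ K', inner ℝ (u - P u) (w - P u) ≤ 0 := fun u =>
    (norm_eq_iInf_iff_real_inner_le_zero hK' (hPK u)).mp (hP u)
  have hlip : LipschitzWith 1 P := by
    refine LipschitzWith.of_dist_le_mul fun u u' => ?_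
    rw [dist_eq_norm, dist_eq_norm, NNReal.coe_one, one_mul]
    have h1 := hP' u (P u') (hPK u')
    have h2 := hP' u' (P u) (hPK u)
    have h3 : ‖P u - P u'‖ ^ 2 ≤ inner ℝ (u - u') (P u - P u') := by
      rw [← real_inner_self_eq_norm_sq]
      simp only [inner_sub_left, inner_sub_right] at h1 h2 ⊢
      have := real_inner_comm (P u) (P u')
      linarith
    have h4 := real_inner_le_norm (u - u') (P u - P u')
    by_cases h5 : ‖P u - P u'‖ = 0
    · rw [h5]; exact norm_nonneg _
    · have h6 : 0 < ‖P u - P u'‖ := lt_of_le_of_ne (norm_nonneg _) (Ne.symm h5)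
      nlinarith
  refine ⟨fun x => e.symm (P (e x)), e.symm.continuous.comp (hlip.continuous.comp e.continuous),
    fun x => ?_, fun x hx => ?_⟩
  · obtain ⟨y, hy, hy'⟩ := hPK (e x)
    beta_reduce
    rw [← hy', e.symm_apply_apply]; exact hy
  · have h1 := hP' (e x) (e x) ⟨x, hx, rfl⟩
    rw [real_inner_self_eq_norm_sq] at h1
    have h2 : ‖e x - P (e x)‖ = 0 := by nlinarith [norm_nonneg (e x - P (e x))]
    have h3 : P (e x) = e x := (sub_eq_zero.mp (norm_eq_zero.mp h2)).symm
    show e.symm (P (e x)) = x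
    rw [h3, e.symm_apply_apply]

/-- **Brouwer's fixed point theorem** for nonempty compact convex sets. -/
theorem brouwer {E : Type*} [NormedAddCommGroup E] [NormedSpace ℝ E]
    [FiniteDimensional ℝ E] {K : Set E} (hne : K.Nonempty) (hc : IsCompact K) (hK : Convex ℝ K)
    (h : E → E) (hh : ContinuousOn h K) (hm : MapsTo h K K) : ∃ x ∈ K, h x = x := by
  obtain ⟨r, hr, hrK, hrid⟩ := exists_retraction hne hc.isClosed hK
  obtain ⟨C, hC⟩ := hc.isBounded.exists_norm_le
  obtain ⟨x, hx⟩ := exists_fixed_of_bounded (fun x => h (r x))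
    (hh.comp_continuous hr hrK) C (fun x => hC _ (hm (hrK x)))
  have hxK : x ∈ K := by rw [← hx]; exact hm (hrK x)
  exact ⟨x, hxK, by simpa [hrid x hxK] using hx⟩

/-- Brouwer's fixed point theorem on the standard simplex. -/
theorem brouwer_stdSimplex {ι : Type*} [Fintype ι] [Nonempty ι]
    (h : (ι → ℝ) → (ι → ℝ)) (hh : ContinuousOn h (stdSimplex ℝ ι))
    (hm : MapsTo h (stdSimplex ℝ ι) (stdSimplex ℝ ι)) : ∃ x ∈ stdSimplex ℝ ι, h x = x := by
  classical
  exact brouwer ⟨_, single_mem_stdSimplex ℝ (Classical.arbitrary ι)⟩ (isCompact_stdSimplex ℝ ι)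
    (convex_stdSimplex ℝ ι) h hh hm

/-- KKM-type form: given continuous nonnegative weights on the simplex that never all vanish,
some point of the simplex is supported where the weights are positive. -/
theorem exists_support_subset {ι : Type*} [Fintype ι] [Nonempty ι]
    (ρ : (ι → ℝ) → ι → ℝ) (hc : ∀ i, ContinuousOn (fun x => ρ x i) (stdSimplex ℝ ι))
    (h0 : ∀ x ∈ stdSimplex ℝ ι, ∀ i, 0 ≤ ρ x i)
    (hpos : ∀ x ∈ stdSimplex ℝ ι, ∃ i, 0 < ρ x i) :
    ∃ x ∈ stdSimplex ℝ ι, ∀ i, 0 < x i → 0 < ρ x i := by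
  have hS : ∀ x ∈ stdSimplex ℝ ι, 0 < ∑ j, ρ x j := by
    intro x hx
    obtain ⟨i, hi⟩ := hpos x hx
    exact lt_of_lt_of_le hi (Finset.single_le_sum (fun j _ => h0 x hx j) (Finset.mem_univ i))
  obtain ⟨x, hx, hfix⟩ := brouwer_stdSimplex (fun x i => ρ x i / ∑ j, ρ x j) (by
      refine continuousOn_pi.mpr fun i => (hc i).div (continuousOn_finsetSum _ fun j _ => hc j) ?_
      exact fun x hx => (hS x hx).ne') (by
      intro x hx
      refine ⟨fun i => div_nonneg (h0 x hx i) (hS x hx).le, ?_⟩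
      rw [← Finset.sum_div, div_self (hS x hx).ne'])
  refine ⟨x, hx, fun i hi => ?_⟩
  have h1 : ρ x i / ∑ j, ρ x j = x i := congr_fun hfix i
  rw [← h1] at hi
  exact (div_pos_iff_of_pos_right (hS x hx)).mp hi

end Crest.Agent.Lib.Brouwer
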